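import Mathlib

/-!
# The second neighbourhood theorem for tournaments (Fisher), via a losing distribution
-/

namespace Vale.Agent.P038

open Finset

variable {ι : Type*} [Fintype ι]

/-- The skew matrix of a relation. -/
noncomputable def skew (r : ι → ι → Prop) (i j : ι) : ℝ :=
  (open Classical in if r i j then 1 else 0) - (open Classical in if r j i then 1 else 0)

omit [Fintype ι] in
theorem skew_antisymm (r : ι → ι → Prop) (i j : ι) : skew r i j = - skew r j i := by
  simp only [skew, neg_sub]

omit [Fintype ι] in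
theorem sum_skew_self (r : ι → ι → Prop) (s : Finset ι) (p : ι → ℝ) :
    ∑ i ∈ s, ∑ j ∈ s, p i * skew r i j * p j = 0 := by
  have h : ∑ i ∈ s, ∑ j ∈ s, p i * skew r i j * p j
      = - ∑ i ∈ s, ∑ j ∈ s, p i * skew r i j * p j := by
    conv_lhs => rw [Finset.sum_comm]
    rw [← Finset.sum_neg_distrib]
    refine Finset.sum_congr rfl fun i _ => ?_
    rw [← Finset.sum_neg_distrib]
    refine Finset.sum_congr rfl fun j _ => ?_
    rw [skew_antisymm r j i]
    ring
  linarith

/-- A losing distribution: every vertex beats at least as much mass as it loses to. -/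
theorem exists_losing [Nonempty ι] (r : ι → ι → Prop) :
    ∃ p : ι → ℝ, (∀ i, 0 ≤ p i) ∧ ∑ i, p i = 1 ∧ ∀ u, 0 ≤ ∑ j, skew r u j * p j := by
  classical
  let f : (ι → ℝ) → (ι → ℝ) → ℝ := fun x y => ∑ i, ∑ j, y i * skew r j i * x j
  have hS : (stdSimplex ℝ ι).Nonempty :=
    ⟨_, single_mem_stdSimplex ℝ (Classical.arbitrary ι)⟩
  have hlinx : ∀ y, IsLinearMap ℝ fun x => f x y := fun y =>
    ⟨fun a b => by simp [f, mul_add, Finset.sum_add_distrib],
      fun c a => by simp only [f, Pi.smul_apply, smul_eq_mul, Finset.mul_sum]; exact Finset.sum_congr rfl fun i _ => Finset.sum_congr rfl fun j _ => by ring⟩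
  have hliny : ∀ x, IsLinearMap ℝ (f x) := fun x =>
    ⟨fun a b => by simp [f, add_mul, Finset.sum_add_distrib],
      fun c a => by simp only [f, Pi.smul_apply, smul_eq_mul, Finset.mul_sum]; exact Finset.sum_congr rfl fun i _ => Finset.sum_congr rfl fun j _ => by ring⟩
  have hcx : ∀ y, Continuous fun x => f x y := fun y => by simp only [f]; fun_prop
  have hcy : ∀ x, Continuous (f x) := fun x => by simp only [f]; fun_prop
  have hconv := convex_stdSimplex ℝ ι
  obtain ⟨a, ha, b, hb, hab⟩ := Sion.exists_isSaddlePointOn (f := f) hS hconv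
    (isCompact_stdSimplex ℝ ι)
    (fun y _ => (hcx y).lowerSemicontinuous.lowerSemicontinuousOn _)
    (fun y _ => (((hlinx y).mk' _).convexOn hconv).quasiconvexOn) hconv hS
    (isCompact_stdSimplex ℝ ι)
    (fun x _ => (hcy x).upperSemicontinuous.upperSemicontinuousOn _)
    (fun x _ => (((hliny x).mk' _).concaveOn hconv).quasiconcaveOn)
  refine ⟨a, ha.1, ha.2, fun u => ?_⟩
  have h1 := hab b hb (Pi.single u 1) (single_mem_stdSimplex ℝ u)
  have h2 : f b b = 0 := by
    have := sum_skew_self (fun i j => r j i) Finset.univ b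
    rw [← this]
    refine Finset.sum_congr rfl fun i _ => Finset.sum_congr rfl fun j _ => ?_
    simp only [skew]
  have h3 : f a (Pi.single u 1) = ∑ j, skew r j u * a j := by
    simp only [f]
    rw [Finset.sum_eq_single u]
    · simp
    · intro i _ hi; simp [hi]
    · simp
  rw [h2, h3] at h1
  have h4 : ∑ j, skew r u j * a j = - ∑ j, skew r j u * a j := by
    rw [← Finset.sum_neg_distrib]
    exact Finset.sum_congr rfl fun j _ => by rw [skew_antisymm r u j]; ring
  rw [h4]
  linarith

open Classical in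
/-- The vertices at distance exactly two from `v`. -/
noncomputable def out2 (r : ι → ι → Prop) (v : ι) : Finset ι :=
  univ.filter fun w => w ≠ v ∧ ¬ r v w ∧ ∃ u, r v u ∧ r u w

open Classical in
/-- The out-neighbours of `v`. -/
noncomputable def out1 (r : ι → ι → Prop) (v : ι) : Finset ι :=
  univ.filter fun w => r v w

/-- Fisher's theorem. -/
theorem tournament_second_neighbour [Nonempty ι] (r : ι → ι → Prop)
    (hasym : ∀ i j, r i j → ¬ r j i) (htot : ∀ i j, i ≠ j → r i j ∨ r j i) :
    ∃ v, (out1 r v).card ≤ (out2 r v).card := by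
  classical
  obtain ⟨p, hp0, hp1, hlose⟩ := exists_losing r
  have hirr : ∀ i, ¬ r i i := fun i h => hasym i i h h
  by_contra hcon
  push Not at hcon
  let I1 : ι → ι → ℝ := fun v w => if r v w then 1 else 0
  let I2 : ι → ι → ℝ := fun v w => if w ∈ out2 r v then 1 else 0
  have key : ∀ w, 0 ≤ ∑ v, p v * (I2 v w - I1 v w) := by
    intro w
    let R := univ.filter fun v => r w v ∧ ¬ ∃ u, r v u ∧ r u w
    have hx : ∀ v ∈ R, ∀ x, skew r v x ≤
        (I2 x w - I1 x w) + (if x ∈ R then skew r v x else 0) := by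
      intro v hv x
      obtain ⟨hwv, hno⟩ := (Finset.mem_filter.1 hv).2
      by_cases hxR : x ∈ R
      · obtain ⟨hwx, hno'⟩ := (Finset.mem_filter.1 hxR).2
        have h1 : I2 x w = 0 := by simp [I2, out2, hno']
        have h2 : I1 x w = 0 := by simp [I1, hasym _ _ hwx]
        rw [if_pos hxR, h1, h2]
        linarith
      rw [if_neg hxR, add_zero]
      rcases eq_or_ne x w with rfl | hxw
      · simp [skew, I1, I2, out2, hwv, hasym _ _ hwv, hirr]
      rcases htot x w hxw with hxw' | hwx
      · have hvx : ¬ r v x := fun h => hno ⟨x, h, hxw'⟩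
        have hne : v ≠ x := fun h => hasym _ _ hwv (h ▸ hxw')
        have hxv : r x v := (htot v x hne).resolve_left hvx
        simp [skew, I1, I2, out2, hxw', hvx, hxv]
      · have hI : I2 x w = 1 := by
          have : ∃ u, r x u ∧ r u w := by
            by_contra hn
            exact hxR (Finset.mem_filter.2 ⟨Finset.mem_univ _, hwx, hn⟩)
          simp [I2, out2, hasym _ _ hwx, Ne.symm hxw, this]
        have hI1 : I1 x w = 0 := by simp [I1, hasym _ _ hwx]
        rw [hI, hI1]
        simp only [skew]
        split_ifs <;> norm_num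
    by_cases hR : ∑ v ∈ R, p v = 0
    · refine (hlose w).trans (Finset.sum_le_sum fun x _ => ?_)
      by_cases hxR : x ∈ R
      · rw [(Finset.sum_eq_zero_iff_of_nonneg fun i _ => hp0 i).1 hR x hxR]
        simp
      rw [mul_comm]
      refine mul_le_mul_of_nonneg_left ?_ (hp0 x)
      rcases eq_or_ne x w with rfl | hxw
      · simp [skew, I1, I2, out2, hirr]
      rcases htot x w hxw with hxw' | hwx
      · simp [skew, I1, I2, out2, hxw', hasym _ _ hxw']
      · have : ∃ u, r x u ∧ r u w := by
          by_contra hn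
          exact hxR (Finset.mem_filter.2 ⟨Finset.mem_univ _, hwx, hn⟩)
        simp [skew, I1, I2, out2, hwx, hasym _ _ hwx, Ne.symm hxw, this]
    have h0 : 0 ≤ ∑ v ∈ R, p v * ∑ x, skew r v x * p x :=
      Finset.sum_nonneg fun v _ => mul_nonneg (hp0 v) (hlose v)
    have h1 : ∑ v ∈ R, p v * ∑ x, skew r v x * p x ≤
        (∑ v ∈ R, p v) * (∑ x, p x * (I2 x w - I1 x w)) +
          ∑ v ∈ R, ∑ x ∈ R, p v * skew r v x * p x := by
      rw [Finset.sum_mul, ← Finset.sum_add_distrib]
      refine Finset.sum_le_sum fun v hv => ?_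
      have hflt : ∑ x ∈ R, p v * skew r v x * p x =
          ∑ x, if x ∈ R then p v * skew r v x * p x else 0 := by simp
      rw [hflt, Finset.mul_sum, Finset.mul_sum, ← Finset.sum_add_distrib]
      refine Finset.sum_le_sum fun x _ => ?_
      have h := mul_le_mul_of_nonneg_left (hx v hv x) (mul_nonneg (hp0 v) (hp0 x))
      split_ifs at h ⊢ <;> linarith
    rw [sum_skew_self, add_zero] at h1
    have hpos : 0 < ∑ v ∈ R, p v :=
      lt_of_le_of_ne (Finset.sum_nonneg fun i _ => hp0 i) (Ne.symm hR)
    nlinarith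
  have htotal : 0 ≤ ∑ v, p v * (((out2 r v).card : ℝ) - (out1 r v).card) := by
    have hv : ∀ v, ∑ w, p v * (I2 v w - I1 v w) =
        p v * (((out2 r v).card : ℝ) - (out1 r v).card) := by
      intro v
      rw [← Finset.mul_sum, Finset.sum_sub_distrib]
      simp [I1, I2, out1]
    rw [← Finset.sum_congr rfl fun v _ => hv v, Finset.sum_comm]
    exact Finset.sum_nonneg fun w _ => key w
  have hneg : ∑ v, p v * (((out2 r v).card : ℝ) - (out1 r v).card) ≤ -1 := by
    rw [← hp1, ← Finset.sum_neg_distrib]
    refine Finset.sum_le_sum fun v _ => ?_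
    have h : ((out2 r v).card : ℝ) + 1 ≤ (out1 r v).card := by exact_mod_cast hcon v
    nlinarith [hp0 v]
  linarith

end Vale.Agent.P038
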