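import Mathlib
import Vale.Agent.P038.Tournament
import Vale.Agent.P038.K4Tables

/-!
The exact certificate of `K4Tables` read on an oriented graph: if a vertex `v` of minimum
out-degree and all its out-neighbours `w` had `10 |N2 w| ≤ 9 |N1 w|`, the weighted sum over ordered
quadruples in `N1 v ∪ N2 v` would be both nonnegative and negative.
-/

open Finset

set_option linter.unusedSectionVars false

namespace Vale.Agent.P038.K4

open Vale.Agent.P038

variable {V : Type} [Fintype V] [DecidableEq V] {r : V → V → Prop}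

open Classical in
/-- Adjacency code. -/
noncomputable def rel (r : V → V → Prop) (a b : V) : ℕ :=
  if r a b then 1 else if r b a then 2 else 0

open Classical in
/-- Colour. -/
noncomputable def col (r : V → V → Prop) (v a : V) : ℕ := if r v a then 0 else 1

/-- Evaluation of a pattern function on four vertices. -/
noncomputable def ev (r : V → V → Prop) (v : V)
    (f : ℕ → ℕ → ℕ → ℕ → ℕ → ℕ → ℕ → ℕ → ℕ → ℕ → ℕ) (a b c e : V) : ℕ :=
  f (col r v a) (col r v b) (col r v c) (col r v e) (rel r a b) (rel r a c) (rel r a e)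
    (rel r b c) (rel r b e) (rel r c e)

theorem rel_lt (a b : V) : rel r a b < 3 := by unfold rel; split_ifs <;> omega

theorem col_lt (v a : V) : col r v a < 2 := by unfold col; split_ifs <;> omega

theorem col_eq_zero (v a : V) : col r v a = 0 ↔ r v a := by unfold col; split_ifs with h <;> simp [h]

theorem rel_eq_one (a b : V) : rel r a b = 1 ↔ r a b := by
  unfold rel; split_ifs with h h' <;> simp [h]

theorem adj_of_rel {a b : V} (h : rel r a b ≠ 0) : r a b ∨ r b a := by
  unfold rel at h; split_ifs at h with h1 h2 <;> simp_all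

theorem rev_rel (hr : ∀ a b, r a b → ¬ r b a) (a b : V) : rev (rel r a b) = rel r b a := by
  unfold rev rel
  by_cases h : r a b <;> by_cases h' : r b a <;> simp [h, h']
  exact hr a b h h'

theorem rel_self (hr : ∀ a b, r a b → ¬ r b a) (a : V) : rel r a a = 0 := by
  have h : ¬ r a a := fun h => hr a a h h
  simp [rel, h]

open Classical in
theorem fwd_rel (a b : V) : fwd (rel r a b) = if r a b then 1 else 0 := by
  unfold fwd
  by_cases h : r a b
  · simp [h, (rel_eq_one a b).2 h]
  · simp [h, mt (rel_eq_one a b).1 h]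

theorem pick_map {α β : Type} (f : α → β) (u : ℕ) (a b c : α) :
    pick u (f a) (f b) (f c) = f (pick u a b c) := by unfold pick; split_ifs <;> rfl

/-- Sum over ordered quadruples. -/
def quad (S : Finset V) (F : V → V → V → V → ℤ) : ℤ :=
  ∑ a ∈ S, ∑ b ∈ S, ∑ c ∈ S, ∑ e ∈ S, F a b c e

theorem quad_add (S : Finset V) (F G : V → V → V → V → ℤ) :
    quad S (fun a b c e => F a b c e + G a b c e) = quad S F + quad S G := by
  simp [quad, sum_add_distrib]

theorem swap01 (S : Finset V) (F : V → V → V → V → ℤ) :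
    quad S (fun a b c e => F b a c e) = quad S F := by
  unfold quad; exact sum_comm

theorem swap12 (S : Finset V) (F : V → V → V → V → ℤ) :
    quad S (fun a b c e => F a c b e) = quad S F := by
  unfold quad; exact sum_congr rfl fun a _ => sum_comm

theorem swap23 (S : Finset V) (F : V → V → V → V → ℤ) :
    quad S (fun a b c e => F a b e c) = quad S F := by
  unfold quad; exact sum_congr rfl fun a _ => sum_congr rfl fun b _ => sum_comm

theorem swap02 (S : Finset V) (F : V → V → V → V → ℤ) :
    quad S (fun a b c e => F c b a e) = quad S F :=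
  ((swap01 S fun a b c e => F c a b e).trans (swap12 S fun a b c e => F b a c e)).trans (swap01 S F)

theorem swap13 (S : Finset V) (F : V → V → V → V → ℤ) :
    quad S (fun a b c e => F a e c b) = quad S F :=
  ((swap12 S fun a b c e => F a e b c).trans (swap23 S fun a b c e => F a c b e)).trans (swap12 S F)

theorem swap03 (S : Finset V) (F : V → V → V → V → ℤ) :
    quad S (fun a b c e => F e b c a) = quad S F :=
  ((swap01 S fun a b c e => F e a c b).trans (swap13 S fun a b c e => F b a c e)).trans (swap01 S F)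

/-- Sum of the 24 rearrangements. -/
def sym2 (F : V → V → V → V → ℤ) (a b c e : V) : ℤ := F a b c e + F b a c e

def sym6 (F : V → V → V → V → ℤ) (a b c e : V) : ℤ :=
  sym2 F a b c e + sym2 F c b a e + sym2 F a c b e

def sym24 (F : V → V → V → V → ℤ) (a b c e : V) : ℤ :=
  sym6 F a b c e + sym6 F e b c a + sym6 F a e c b + sym6 F a b e c

theorem quad_sym24 (S : Finset V) (F : V → V → V → V → ℤ) :
    quad S (sym24 F) = 24 * quad S F := by
  have h2 : quad S (sym2 F) = 2 * quad S F := by
    unfold sym2; rw [quad_add, swap01]; ring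
  have h6 : quad S (sym6 F) = 6 * quad S F := by
    unfold sym6; rw [quad_add, quad_add, swap02 S (sym2 F), swap12 S (sym2 F)]
    rw [h2]; ring
  unfold sym24; rw [quad_add, quad_add, quad_add, swap03 S (sym6 F), swap13 S (sym6 F),
    swap23 S (sym6 F)]
  change quad S (sym6 F) + quad S (sym6 F) + quad S (sym6 F) + quad S (sym6 F) = _
  rw [h6]; ring

theorem sum_list_map (S : Finset V) {α : Type} (l : List α) (f : α → V → ℤ) :
    ∑ a ∈ S, (l.map fun x => f x a).sum = (l.map fun x => ∑ a ∈ S, f x a).sum := by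
  induction l with
  | nil => simp
  | cons x l ih => simp [sum_add_distrib, ih]

section bound

variable (hr : ∀ a b, r a b → ¬ r b a) (v : V)
  (hmin : ∀ w, (out1 r v).card ≤ (out1 r w).card)
  (hfail : ∀ w, (w = v ∨ r v w) → 10 * (out2 r w).card ≤ 9 * (out1 r w).card)

include hr in
theorem out_subset {u : V} (hu : r v u) : out1 r u ⊆ out1 r v ∪ out2 r v := by
  intro y hy
  have huy : r u y := by simpa [out1] using hy
  by_cases hvy : r v y
  · exact mem_union_left _ (by simp [out1, hvy])
  · refine mem_union_right _ ?_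
    have hne : y ≠ v := fun h => hr v u hu (h ▸ huy)
    simp only [out2, mem_filter, mem_univ, true_and]
    exact ⟨hne, hvy, u, hu, huy⟩

include hr hmin hfail in
open Classical in
theorem entry_nonneg (a b c : V) (en : ℕ × ℕ × ℕ × ℕ × ℕ × ℕ)
    (hok : okW (code3 (col r v a) (col r v b) (col r v c) (rel r a b) (rel r a c) (rel r b c)) en
      = true) :
    0 ≤ ∑ e ∈ out1 r v ∪ out2 r v,
      ineqVal en (col r v e) (fwd (rel r a e)) (fwd (rel r b e)) (fwd (rel r c e)) := by
  obtain ⟨w, k, u, p, q, h⟩ := en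
  obtain ⟨S, hS⟩ : ∃ S, S = out1 r v ∪ out2 r v := ⟨_, rfl⟩
  rw [← hS]
  have hdis : Disjoint (out1 r v) (out2 r v) := by
    rw [disjoint_left]; intro y h1 h2
    simp [out1] at h1; simp [out2, h1] at h2
  have hA : ((S.filter fun e => col r v e = 0).card : ℤ) = (out1 r v).card := by
    congr 2; ext y
    simp only [mem_filter, col_eq_zero, hS, mem_union, out1, mem_univ, true_and]
    tauto
  have hX : S.card = (out1 r v).card + (out2 r v).card := by rw [hS, card_union_of_disjoint hdis]
  simp only [okW, Bool.and_eq_true, Bool.or_eq_true, beq_iff_eq, decide_eq_true_eq] at hok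
  obtain ⟨hh, hok⟩ := hok
  have hx := hfail v (Or.inl rfl)
  by_cases hk : k = 0
  · simp only [ineqVal, hk, if_true]
    rw [sum_ite, sum_const, sum_const, nsmul_eq_mul, nsmul_eq_mul, hA]
    have h2 := card_filter_add_card_filter_not (s := S) (fun e => col r v e = 0)
    omega
  obtain ⟨⟨hu, hcu⟩, hrest⟩ := hok.resolve_left hk
  obtain ⟨U, hU⟩ : ∃ U, U = pick u a b c := ⟨_, rfl⟩
  have hvU : r v U := by
    rw [← col_eq_zero (r := r), hU, ← hcu]
    simp only [rootCol, code3]
    have := col_lt (r := r) v a; have := col_lt (r := r) v b; have := col_lt (r := r) v c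
    have := rel_lt (r := r) a b; have := rel_lt (r := r) a c; have := rel_lt (r := r) b c
    interval_cases u <;> simp [pick] <;> omega
  have ho : ∀ i e, pick i (fwd (rel r a e)) (fwd (rel r b e)) (fwd (rel r c e))
      = if r (pick i a b c) e then 1 else 0 := fun i e => by
    rw [pick_map (fun z => fwd (rel r z e)), fwd_rel]
  have hNU : S.filter (fun e => r U e) = out1 r U := by
    ext y
    simp only [mem_filter, out1, mem_univ, true_and]
    exact ⟨fun h => h.2, fun h => ⟨hS ▸ out_subset hr v hvU (by simp [out1, h]), h⟩⟩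
  have hsumU : ∑ e ∈ S, ((if r U e then 1 else 0 : ℕ) : ℤ) = (out1 r U).card := by
    rw [← hNU]; simp
  have hAs : ∑ e ∈ S, (if col r v e = 0 then (10 : ℤ) else 0) = 10 * (out1 r v).card := by
    rw [← hA, sum_ite, sum_const_zero, add_zero, sum_const, nsmul_eq_mul]; ring
  have hdU := hmin U
  by_cases hk1 : k = 1
  · simp only [ineqVal, hk1, one_ne_zero, if_false, if_true, ho, ← hU]
    rw [sum_sub_distrib, ← mul_sum, hsumU, hAs]
    omega
  obtain ⟨⟨⟨hp, hq⟩, hUp⟩, hUq⟩ := hrest.resolve_left hk1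
  have hroot : ∀ i j, i < 3 → j < 3 →
      rootRel (code3 (col r v a) (col r v b) (col r v c) (rel r a b) (rel r a c) (rel r b c)) i j
        = rel r (pick i a b c) (pick j a b c) := by
    intro i j hi hj
    obtain ⟨s, hs⟩ : ∃ s,
        s = code3 (col r v a) (col r v b) (col r v c) (rel r a b) (rel r a c) (rel r b c) :=
      ⟨_, rfl⟩
    have := col_lt (r := r) v a; have := col_lt (r := r) v b; have := col_lt (r := r) v c
    have := rel_lt (r := r) a b; have := rel_lt (r := r) a c; have := rel_lt (r := r) b c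
    unfold code3 at hs
    have e1 : s % 27 / 9 = rel r a b := by omega
    have e2 : s % 9 / 3 = rel r a c := by omega
    have e3 : s % 3 = rel r b c := by omega
    unfold code3
    rw [← hs]
    interval_cases i <;> interval_cases j <;>
      simp [rootRel, pick, e1, e2, e3, rev_rel hr, rel_self hr]
  obtain ⟨P, hP⟩ : ∃ P, P = pick p a b c := ⟨_, rfl⟩
  obtain ⟨Q, hQ⟩ : ∃ Q, Q = pick q a b c := ⟨_, rfl⟩
  have hUP : r U P := by rw [← rel_eq_one (r := r), hU, hP, ← hroot u p hu hp]; exact hUp
  have hUQ : r U Q := by rw [← rel_eq_one (r := r), hU, hQ, ← hroot u q hu hq]; exact hUq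
  simp only [ineqVal, if_neg hk, if_neg hk1, ho, ← hU, ← hP, ← hQ]
  have hor : ∀ e, ((if r U e then 1 else 0 : ℕ) + (if r P e then 1 else 0) +
      (if r Q e then 1 else 0) = 0) ↔ ¬ (r U e ∨ r P e ∨ r Q e) := fun e => by
    by_cases h1 : r U e <;> by_cases h2 : r P e <;> by_cases h3 : r Q e <;> simp [h1, h2, h3]
  simp only [hor]
  rw [sum_add_distrib, sum_sub_distrib, ← mul_sum, hsumU, sum_ite, sum_const_zero, zero_add,
    sum_const, nsmul_eq_mul, ← mul_sum, sum_sub_distrib, hAs, ← mul_sum]
  have hP2 : ∑ e ∈ S, ((if r P e then 1 else 0 : ℕ) : ℤ) = (S.filter fun e => r P e).card := by simp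
  rw [hP2]
  simp only [not_not]
  have hsub : (S.filter fun e => r U e ∨ r P e ∨ r Q e) ∪ (out1 r P \ S) ⊆
      out1 r U ∪ out2 r U := by
    intro y hy
    by_cases hUy : r U y
    · exact mem_union_left _ (by simp [out1, hUy])
    simp only [mem_union, mem_filter, mem_sdiff, out1, mem_univ, true_and] at hy
    obtain ⟨m, hUm, hmy⟩ : ∃ m, r U m ∧ r m y := by
      rcases hy with ⟨-, h | h | h⟩ | ⟨h, -⟩
      · exact absurd h hUy
      · exact ⟨P, hUP, h⟩
      · exact ⟨Q, hUQ, h⟩
      · exact ⟨P, hUP, h⟩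
    refine mem_union_right _ ?_
    simp only [out2, mem_filter, mem_univ, true_and]
    exact ⟨fun h => hr U m hUm (h ▸ hmy), hUy, m, hUm, hmy⟩
  have h1 := (card_le_card hsub).trans (card_union_le _ _)
  rw [card_union_of_disjoint (by
    rw [disjoint_left]; intro y h1 h2
    exact (mem_sdiff.1 h2).2 (mem_filter.1 h1).1)] at h1
  have h2 : (out1 r P \ S).card + (S.filter fun e => r P e).card = (out1 r P).card := by
    rw [← card_sdiff_add_card_inter (out1 r P) S]
    congr 2
    ext y; simp [out1, and_comm]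
  have h3 := hfail U (Or.inr hvU)
  have h4 := hmin P
  interval_cases h <;> omega

include hr hmin hfail in
theorem lin_nonneg (a b c : V) :
    0 ≤ ∑ e ∈ out1 r v ∪ out2 r v,
      ((tab1 (code3 (col r v a) (col r v b) (col r v c) (rel r a b) (rel r a c) (rel r b c))
        (col r v e * 8 + fwd (rel r a e) * 4 + fwd (rel r b e) * 2 + fwd (rel r c e)) : ℤ)
        - 34359738368) := by
  obtain ⟨s, hs⟩ : ∃ s,
      s = code3 (col r v a) (col r v b) (col r v c) (rel r a b) (rel r a c) (rel r b c) :=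
    ⟨_, rfl⟩
  have := col_lt (r := r) v a; have := col_lt (r := r) v b; have := col_lt (r := r) v c
  have := rel_lt (r := r) a b; have := rel_lt (r := r) a c; have := rel_lt (r := r) b c
  have hs' : s < 216 := by rw [hs, code3]; omega
  have hl := List.all_eq_true.1 linOk_all s (List.mem_range.2 hs')
  simp only [linOk, Bool.and_eq_true, List.all_eq_true, List.mem_range, decide_eq_true_eq] at hl
  obtain ⟨hW, hz⟩ := hl
  rw [← hs]
  have key : ∀ e, ((tab1 s
      (col r v e * 8 + fwd (rel r a e) * 4 + fwd (rel r b e) * 2 + fwd (rel r c e)) : ℤ)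
        - 34359738368) = ((wts s).map fun en => (en.1 : ℤ) *
      ineqVal en (col r v e) (fwd (rel r a e)) (fwd (rel r b e)) (fwd (rel r c e))).sum := by
    intro e
    have := col_lt (r := r) v e
    have h0 : fwd (rel r a e) < 2 := by unfold fwd; split_ifs <;> omega
    have h1 : fwd (rel r b e) < 2 := by unfold fwd; split_ifs <;> omega
    have h2 : fwd (rel r c e) < 2 := by unfold fwd; split_ifs <;> omega
    generalize fwd (rel r a e) = o0 at *
    generalize fwd (rel r b e) = o1 at *
    generalize fwd (rel r c e) = o2 at *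
    generalize col r v e = cz at *
    have := hz (cz * 8 + o0 * 4 + o1 * 2 + o2) (by omega)
    rw [show (cz * 8 + o0 * 4 + o1 * 2 + o2) / 8 = cz by omega,
      show (cz * 8 + o0 * 4 + o1 * 2 + o2) / 4 % 2 = o0 by omega,
      show (cz * 8 + o0 * 4 + o1 * 2 + o2) / 2 % 2 = o1 by omega,
      show (cz * 8 + o0 * 4 + o1 * 2 + o2) % 2 = o2 by omega] at this
    exact this
  rw [sum_congr rfl fun e _ => key e, sum_list_map]
  refine List.sum_nonneg fun x hx => ?_
  obtain ⟨en, hen, rfl⟩ := List.mem_map.1 hx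
  rw [← mul_sum]
  exact mul_nonneg (by positivity) (entry_nonneg hr v hmin hfail a b c en (hs ▸ hW en hen))

theorem sq_part_nonneg (a b : V) (S : Finset V) :
    0 ≤ ∑ c ∈ S, ∑ e ∈ S,
      ((tab2 ((col r v a * 2 + col r v b) * 3 + rel r a b)
        (col r v c * 9 + rel r a c * 3 + rel r b c)
        (col r v e * 9 + rel r a e * 3 + rel r b e) : ℤ) - 34359738368) := by
  obtain ⟨t, ht⟩ : ∃ t, t = (col r v a * 2 + col r v b) * 3 + rel r a b := ⟨_, rfl⟩
  obtain ⟨fl, hfl⟩ : ∃ fl : V → ℕ, ∀ c, fl c = col r v c * 9 + rel r a c * 3 + rel r b c :=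
    ⟨_, fun _ => rfl⟩
  have ht' : t < 12 := by
    have := col_lt (r := r) v a; have := col_lt (r := r) v b; have := rel_lt (r := r) a b; omega
  have hfl' : ∀ c, fl c < 18 := fun c => by
    have := col_lt (r := r) v c; have := rel_lt (r := r) a c; have := rel_lt (r := r) b c
    rw [hfl]; omega
  have hq := List.all_eq_true.1 quadOk_all t (List.mem_range.2 ht')
  simp only [quadOk, List.all_eq_true, List.mem_range, decide_eq_true_eq] at hq
  simp only [← hfl, ← ht]
  rw [sum_congr rfl fun c _ => (sum_congr rfl fun e _ => hq (fl c) (hfl' c) (fl e) (hfl' e)).trans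
    (sum_list_map S (vecs t) fun w e => 10 * (w.getD (fl c) 0 * w.getD (fl e) 0))]
  rw [sum_list_map S (vecs t) fun w c => ∑ e ∈ S, 10 * (w.getD (fl c) 0 * w.getD (fl e) 0)]
  refine List.sum_nonneg fun x hx => ?_
  obtain ⟨w, -, rfl⟩ := List.mem_map.1 hx
  simp only [← mul_sum]
  rw [← sum_mul]
  exact mul_nonneg (by norm_num) (mul_self_nonneg _)

include hr hmin hfail in
theorem not_all_fail (hk4 : ∀ a b c e, (r a b ∨ r b a) → (r a c ∨ r c a) → (r a e ∨ r e a) →
      (r b c ∨ r c b) → (r b e ∨ r e b) → (r c e ∨ r e c) → False)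
    (hd : 0 < (out1 r v).card) : False := by
  obtain ⟨S, hS⟩ : ∃ S, S = out1 r v ∪ out2 r v := ⟨_, rfl⟩
  obtain ⟨F, hF⟩ : ∃ F : V → V → V → V → ℤ,
      ∀ a b c e, F a b c e = (ev r v term a b c e : ℤ) - 68719476736 := ⟨_, fun _ _ _ _ => rfl⟩
  have hpos : 0 ≤ quad S F := by
    refine sum_nonneg fun a _ => sum_nonneg fun b _ => ?_
    have h1 : 0 ≤ ∑ c ∈ S, ∑ e ∈ S,
        ((tab1 (code3 (col r v a) (col r v b) (col r v c) (rel r a b) (rel r a c) (rel r b c))
          (col r v e * 8 + fwd (rel r a e) * 4 + fwd (rel r b e) * 2 + fwd (rel r c e)) : ℤ)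
          - 34359738368) := sum_nonneg fun c _ => hS ▸ lin_nonneg hr v hmin hfail a b c
    have h2 := sq_part_nonneg (r := r) v a b S
    refine (add_nonneg h1 h2).trans (le_of_eq ?_)
    rw [← sum_add_distrib]
    refine sum_congr rfl fun c _ => ?_
    rw [← sum_add_distrib]
    refine sum_congr rfl fun e _ => ?_
    rw [hF]; simp only [ev, term, Nat.cast_add]; ring
  have h24 : ∀ a b c e,
      sym24 F a b c e = (ev r v term24 a b c e : ℤ) - 1649267441664 := by
    intro a b c e
    simp only [sym24, sym6, sym2, hF, ev, term24, term6, term2, rev_rel hr, Nat.cast_add]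
    ring
  have hbad : ∀ a b c, r v a → r v b → r v c → rel r a b ≠ 0 → rel r a c ≠ 0 → rel r b c ≠ 0 →
      False := fun a b c ha hb hc h1 h2 h3 =>
    hk4 v a b c (Or.inl ha) (Or.inl hb) (Or.inl hc) (adj_of_rel h1) (adj_of_rel h2) (adj_of_rel h3)
  have hneg : ∀ a b c e, sym24 F a b c e < 0 := by
    intro a b c e
    rw [h24]
    have hp := patOk_all (col r v a) (col r v b) (col r v c) (col r v e)
      (col_lt v a) (col_lt v b) (col_lt v c) (col_lt v e)
    simp only [patOk, List.all_eq_true, List.mem_range, Bool.or_eq_true, decide_eq_true_eq] at hp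
    rcases hp _ (rel_lt a b) _ (rel_lt a c) _ (rel_lt a e) _ (rel_lt b c) _ (rel_lt b e) _
      (rel_lt c e) with h | h
    · exfalso
      simp only [excluded, Bool.or_eq_true, Bool.and_eq_true, bne_iff_ne, beq_iff_eq] at h
      simp only [col_eq_zero] at h
      rcases h with (((⟨⟨⟨⟨⟨h1, h2⟩, h3⟩, h4⟩, h5⟩, h6⟩ | ⟨⟨⟨⟨⟨x, y⟩, z⟩, h1⟩, h2⟩, h3⟩) |
        ⟨⟨⟨⟨⟨x, y⟩, z⟩, h1⟩, h2⟩, h3⟩) | ⟨⟨⟨⟨⟨x, y⟩, z⟩, h1⟩, h2⟩, h3⟩) |
        ⟨⟨⟨⟨⟨x, y⟩, z⟩, h1⟩, h2⟩, h3⟩
      · exact hk4 a b c e (adj_of_rel h1) (adj_of_rel h2) (adj_of_rel h3) (adj_of_rel h4)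
          (adj_of_rel h5) (adj_of_rel h6)
      all_goals exact hbad _ _ _ x y z h1 h2 h3
    · unfold ev
      omega
  obtain ⟨x, hx⟩ : S.Nonempty := by
    rw [hS]; exact (card_pos.1 hd).mono subset_union_left
  have hlt : quad S (sym24 F) < 0 :=
    sum_neg (fun a _ => sum_neg (fun b _ => sum_neg (fun c _ => sum_neg (fun e _ => hneg a b c e)
      ⟨x, hx⟩) ⟨x, hx⟩) ⟨x, hx⟩) ⟨x, hx⟩
  rw [quad_sym24] at hlt
  linarith

end bound

end Vale.Agent.P038.K4
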