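import Mathlib
import Vale.Agent.P038.Tournament

/-!
# Approximate second neighbourhood theorem for almost-tournaments
-/

namespace Vale.Agent.P038

open Finset

variable {V : Type*} [Fintype V]

open Classical in
/-- The ordered pairs of distinct non-adjacent vertices. -/
noncomputable def missingPairs (r : V → V → Prop) : Finset (V × V) :=
  univ.filter fun p => p.1 ≠ p.2 ∧ ¬ r p.1 p.2 ∧ ¬ r p.2 p.1

/-- Resampling one coordinate. -/
theorem sum_update {ι : Type*} [Fintype ι] [DecidableEq ι] (j : ι) (g : (ι → V) → ℝ) :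
    ∑ x : ι → V, ∑ v, g (Function.update x j v) = (Fintype.card V : ℝ) * ∑ x, g x := by
  let f : (ι → V) × V → (ι → V) × V := fun p => (Function.update p.1 j p.2, p.1 j)
  have hf : Function.Involutive f := fun p => by
    simp only [f, Function.update_idem, Function.update_self, Function.update_eq_self]
  let e : ((ι → V) × V) ≃ ((ι → V) × V) := hf.toPerm
  have h1 : ∑ x : ι → V, ∑ v, g (Function.update x j v) = ∑ p : (ι → V) × V, g (f p).1 :=
    (Fintype.sum_prod_type fun p : (ι → V) × V => g (Function.update p.1 j p.2)).symm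
  have h2 : ∑ p : (ι → V) × V, g (f p).1 = ∑ p : (ι → V) × V, g p.1 :=
    e.sum_comp fun p => g p.1
  have h3 : ∑ p : (ι → V) × V, g p.1 = (Fintype.card V : ℝ) * ∑ x, g x := by
    rw [Fintype.sum_prod_type fun p : (ι → V) × V => g p.1, Finset.mul_sum]
    exact Finset.sum_congr rfl fun x _ => by
      simp only [Finset.sum_const, nsmul_eq_mul, Finset.card_univ]
  rw [h1, h2, h3]

variable {K : ℕ}

open Classical in
/-- The centred count of coordinates of `x` other than `i` falling into `A (x i)`. -/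
noncomputable def dev (A : V → Finset V) (x : Fin K → V) (i : Fin K) : ℝ :=
  ∑ j ∈ univ.erase i,
    ((Fintype.card V : ℝ) * (if x j ∈ A (x i) then 1 else 0) - ((A (x i)).card : ℝ))

/-- Second moment of the centred count. -/
theorem sum_dev_sq (A : V → Finset V) (i : Fin K) :
    ∑ x : Fin K → V, dev A x i ^ 2 ≤
      (K : ℝ) * (Fintype.card V : ℝ) ^ 2 * (Fintype.card V : ℝ) ^ K := by
  classical
  set n : ℝ := (Fintype.card V : ℝ) with hndef
  let h : (Fin K → V) → Fin K → ℝ := fun x j =>
    n * (if x j ∈ A (x i) then 1 else 0) - ((A (x i)).card : ℝ)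
  have hcard : ∀ v, ((A v).card : ℝ) ≤ n := fun v =>
    Nat.cast_le.2 (Finset.card_le_univ (A v))
  have hexp : ∀ x, dev A x i ^ 2 = ∑ j ∈ univ.erase i, ∑ l ∈ univ.erase i, h x j * h x l := by
    intro x
    rw [sq, dev, Finset.sum_mul_sum]
  simp only [hexp]
  rw [Finset.sum_comm]
  have hsum : ∀ j ∈ univ.erase i, ∑ x : Fin K → V, ∑ l ∈ univ.erase i, h x j * h x l ≤
      n ^ 2 * n ^ K := by
    intro j hj
    rw [Finset.sum_comm, Finset.sum_eq_single j]
    · have hb : ∀ x, h x j * h x j ≤ n ^ 2 := by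
        intro x
        have h0 : (0 : ℝ) ≤ n := Nat.cast_nonneg _
        have h1 := hcard (x i)
        have h2 : (0 : ℝ) ≤ ((A (x i)).card : ℝ) := Nat.cast_nonneg _
        simp only [h]
        split_ifs <;> nlinarith
      refine (Finset.sum_le_sum fun x _ => hb x).trans (le_of_eq ?_)
      simp [n, mul_comm]
    · intro l hl hlj
      have hji : j ≠ i := (Finset.mem_erase.1 hj).1
      have hz : ∑ x : Fin K → V, ∑ v, h (Function.update x j v) j * h (Function.update x j v) l
          = 0 := by
        refine Finset.sum_eq_zero fun x _ => ?_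
        simp only [h, Function.update_self, Function.update_of_ne hlj,
          Function.update_of_ne hji.symm]
        rw [← Finset.sum_mul, Finset.sum_sub_distrib, ← Finset.mul_sum]
        simp [n]
      rw [sum_update j fun x => h x j * h x l] at hz
      rcases mul_eq_zero.1 hz with h0 | h0
      · have : IsEmpty V := Fintype.card_eq_zero_iff.1 (by exact_mod_cast h0)
        refine Finset.sum_eq_zero fun x _ => ?_
        exact isEmptyElim (x j)
      · exact h0
    · intro hjn; exact absurd hj hjn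
  refine (Finset.sum_le_sum hsum).trans ?_
  rw [Finset.sum_const, nsmul_eq_mul, mul_assoc]
  refine mul_le_mul_of_nonneg_right ?_ (by positivity)
  exact_mod_cast (Finset.card_le_univ _).trans_eq (Fintype.card_fin K)

open Classical in
/-- The coordinates lying on a sampled missing pair. -/
noncomputable def fakeSet (r : V → V → Prop) (x : Fin K → V) : Finset (Fin K) :=
  univ.filter fun i => ∃ j, (x i, x j) ∈ missingPairs r

open Classical in
theorem sum_fakeSet (r : V → V → Prop) :
    (Fintype.card V : ℝ) ^ 2 * ∑ x : Fin K → V, ((fakeSet r x).card : ℝ) ≤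
      (K : ℝ) ^ 2 * (missingPairs r).card * (Fintype.card V : ℝ) ^ K := by
  set n : ℝ := (Fintype.card V : ℝ)
  let g : V → V → ℝ := fun u v => if (u, v) ∈ missingPairs r then 1 else 0
  have hle : ∀ x : Fin K → V, ((fakeSet r x).card : ℝ) ≤ ∑ i, ∑ j, g (x i) (x j) := by
    intro x
    rw [fakeSet, Finset.card_filter, Nat.cast_sum]
    refine Finset.sum_le_sum fun i _ => ?_
    have hnn : ∀ j, 0 ≤ g (x i) (x j) := fun j => by simp only [g]; split_ifs <;> norm_num
    split_ifs with h
    · obtain ⟨j, hj⟩ := h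
      refine le_trans ?_ (Finset.single_le_sum (fun j _ => hnn j) (Finset.mem_univ j))
      simp [g, hj]
    · simpa using Finset.sum_nonneg fun j _ => hnn j
  refine (mul_le_mul_of_nonneg_left (Finset.sum_le_sum fun x _ => hle x) (sq_nonneg n)).trans ?_
  rw [Finset.sum_comm, Finset.mul_sum]
  have hij : ∀ i j : Fin K, n ^ 2 * ∑ x : Fin K → V, g (x i) (x j) ≤
      (missingPairs r).card * n ^ K := by
    intro i j
    rcases eq_or_ne i j with rfl | hne
    · have : ∀ x : Fin K → V, g (x i) (x i) = 0 := fun x => by simp [g, missingPairs]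
      simp only [this, Finset.sum_const_zero, mul_zero]
      positivity
    · refine le_of_eq ?_
      rw [sq, mul_assoc, ← sum_update i fun x => g (x i) (x j)]
      simp only [Function.update_self, Function.update_of_ne hne.symm]
      rw [← sum_update j fun x => ∑ v, g v (x j)]
      simp only [Function.update_self]
      rw [Finset.sum_const, nsmul_eq_mul, Finset.card_univ, Fintype.card_fun, Fintype.card_fin,
        Nat.cast_pow, mul_comm]
      congr 1
      rw [Finset.sum_comm, ← Fintype.sum_prod_type (f := fun p : V × V => g p.1 p.2)]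
      simp [g]
  calc ∑ i, n ^ 2 * ∑ x : Fin K → V, ∑ j, g (x i) (x j)
      = ∑ i, ∑ j, n ^ 2 * ∑ x : Fin K → V, g (x i) (x j) :=
        Finset.sum_congr rfl fun i _ => by rw [Finset.sum_comm, Finset.mul_sum]
    _ ≤ ∑ _i : Fin K, ∑ _j : Fin K, ((missingPairs r).card : ℝ) * n ^ K :=
        Finset.sum_le_sum fun i _ => Finset.sum_le_sum fun j _ => hij i j
    _ = _ := by simp; ring

open Classical in
/-- The coordinates whose count deviates by more than `t`. -/
noncomputable def devSet (A : V → Finset V) (x : Fin K → V) (t : ℝ) : Finset (Fin K) :=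
  univ.filter fun i => t < |dev A x i|

open Classical in
theorem sum_devSet (A : V → Finset V) (t : ℝ) (ht : 0 ≤ t) :
    t ^ 2 * ∑ x : Fin K → V, ((devSet A x t).card : ℝ) ≤
      (K : ℝ) ^ 2 * (Fintype.card V : ℝ) ^ 2 * (Fintype.card V : ℝ) ^ K := by
  have hle : ∀ x : Fin K → V, t ^ 2 * ((devSet A x t).card : ℝ) ≤ ∑ i, dev A x i ^ 2 := by
    intro x
    rw [mul_comm, ← nsmul_eq_mul]
    refine (Finset.card_nsmul_le_sum _ _ _ fun i hi => ?_).trans
      (Finset.sum_le_sum_of_subset_of_nonneg (Finset.subset_univ (devSet A x t))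
        fun i _ _ => sq_nonneg _)
    have := (Finset.mem_filter.1 hi).2
    rw [← sq_abs (dev A x i)]
    exact pow_le_pow_left₀ ht this.le 2
  rw [Finset.mul_sum]
  refine (Finset.sum_le_sum fun x _ => hle x).trans ?_
  rw [Finset.sum_comm]
  refine (Finset.sum_le_sum fun i _ => sum_dev_sq A i).trans (le_of_eq ?_)
  simp
  ring

open Classical in
theorem cast_card_filter_eq (A : V → Finset V) (x : Fin K → V) (i : Fin K) :
    (Fintype.card V : ℝ) * ((univ.filter fun j => x j ∈ A (x i)).card : ℝ) =
      dev A x i + ((K : ℝ) - 1) * (A (x i)).card +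
        (Fintype.card V : ℝ) * (if x i ∈ A (x i) then 1 else 0) := by
  have h : dev A x i = (∑ j, ((Fintype.card V : ℝ) * (if x j ∈ A (x i) then 1 else 0)
      - ((A (x i)).card : ℝ))) - ((Fintype.card V : ℝ) * (if x i ∈ A (x i) then 1 else 0)
      - ((A (x i)).card : ℝ)) := by
    rw [dev, ← Finset.sum_erase_add univ _ (Finset.mem_univ i)]
    ring
  rw [h, Finset.sum_sub_distrib, ← Finset.mul_sum, Finset.sum_boole]
  simp
  ring

/-- One sample: `K`, `t` large and few missing pairs give an approximate Seymour vertex. -/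
theorem exists_approx (r : V → V → Prop) [Nonempty V] (hasym : ∀ u v, r u v → ¬ r v u)
    (K : ℕ) (e : ℝ) (he : 0 < e) (he1 : e < 1) (hK : 4 / e ^ 3 ≤ K)
    (hM : (K : ℝ) * ((missingPairs r).card : ℝ) ≤ e / 2 * (Fintype.card V : ℝ) ^ 2) :
    ∃ v, ((out1 r v).card : ℝ) ≤ (out2 r v).card + 1 + 5 * e * (Fintype.card V : ℝ) := by
  classical
  set n : ℝ := (Fintype.card V : ℝ)
  have hn : 0 < n := by
    have : 0 < Fintype.card V := Fintype.card_pos
    exact Nat.cast_pos.2 this
  have hK4 : 4 ≤ (K : ℝ) * e ^ 3 := (div_le_iff₀ (by positivity)).1 hK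
  have hKpos : (0 : ℝ) < K := by
    rcases Nat.eq_zero_or_pos K with h | h
    · subst h; simp at hK4; linarith
    · exact_mod_cast h
  have hKe : 1 ≤ (K : ℝ) * e := by
    nlinarith [pow_le_pow_of_le_one he.le he1.le (show 1 ≤ 3 by norm_num)]
  let A : V → Finset V := out1 r
  let B : V → Finset V := fun v => insert v (out2 r v)
  let t : ℝ := e * K * n
  have ht : 0 < t := by positivity
  have htot : ∑ x : Fin K → V, (((fakeSet r x).card : ℝ) + (devSet A x t).card +
      (devSet B x t).card) ≤ ∑ _x : Fin K → V, e * K := by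
    have h1 := sum_fakeSet (K := K) r
    have h2 := sum_devSet (K := K) A t ht.le
    have h3 := sum_devSet (K := K) B t ht.le
    have hnK : ∑ _x : Fin K → V, e * (K : ℝ) = n ^ K * (e * K) := by simp [n]
    rw [hnK, Finset.sum_add_distrib, Finset.sum_add_distrib]
    have hf : ∑ x : Fin K → V, ((fakeSet r x).card : ℝ) ≤ n ^ K * (e * K) / 2 := by
      refine le_of_mul_le_mul_left ?_ (pow_pos hn 2)
      refine h1.trans ?_
      calc (K : ℝ) ^ 2 * (missingPairs r).card * n ^ K
          = ((K : ℝ) * (missingPairs r).card) * ((K : ℝ) * n ^ K) := by ring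
        _ ≤ (e / 2 * n ^ 2) * ((K : ℝ) * n ^ K) :=
          mul_le_mul_of_nonneg_right hM (by positivity)
        _ = _ := by ring
    have hd : ∀ C : V → Finset V,
        t ^ 2 * ∑ x : Fin K → V, ((devSet C x t).card : ℝ) ≤
          (K : ℝ) ^ 2 * n ^ 2 * n ^ K →
        ∑ x : Fin K → V, ((devSet C x t).card : ℝ) ≤ n ^ K * (e * K) / 4 := by
      intro C hC
      refine le_of_mul_le_mul_left ?_ (pow_pos ht 2)
      refine hC.trans ?_
      calc (K : ℝ) ^ 2 * n ^ 2 * n ^ K
          = 4 * ((K : ℝ) ^ 2 * n ^ 2 * n ^ K / 4) := by ring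
        _ ≤ (K : ℝ) * e ^ 3 * ((K : ℝ) ^ 2 * n ^ 2 * n ^ K / 4) :=
          mul_le_mul_of_nonneg_right hK4 (by positivity)
        _ = _ := by simp only [t]; ring
    linarith [hd A h2, hd B h3]
  obtain ⟨x, -, hx⟩ := Finset.exists_le_of_sum_le Finset.univ_nonempty htot
  let X : Finset (Fin K) := fakeSet r x ∪ devSet A x t ∪ devSet B x t
  have hX : (X.card : ℝ) ≤ e * K := by
    refine le_trans ?_ hx
    exact_mod_cast (Finset.card_union_le _ _).trans
      (Nat.add_le_add_right (Finset.card_union_le _ _) _)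
  have hXK : X.card < K := by
    have : (X.card : ℝ) < K := by nlinarith
    exact_mod_cast this
  let S := { i : Fin K // i ∉ X }
  have : Nonempty S := by
    by_contra h
    have hall : ∀ i, i ∈ X := fun i => by
      by_contra hi; exact h ⟨⟨i, hi⟩⟩
    rw [Finset.eq_univ_of_forall hall, Finset.card_univ, Fintype.card_fin] at hXK
    omega
  let r' : S → S → Prop := fun i j => r (x i) (x j) ∨ (x i = x j ∧ i < j)
  have hirr : ∀ v, ¬ r v v := fun v h => hasym v v h h
  have hasym' : ∀ i j, r' i j → ¬ r' j i := by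
    rintro i j (h | ⟨h, hlt⟩) (h' | ⟨h', hlt'⟩)
    · exact hasym _ _ h h'
    · exact hirr _ (h' ▸ h)
    · exact hirr _ (h ▸ h')
    · exact lt_asymm hlt hlt'
  have htot' : ∀ i j, i ≠ j → r' i j ∨ r' j i := by
    intro i j hij
    by_cases heq : x i = x j
    · rcases lt_or_gt_of_ne hij with h | h
      · exact Or.inl (Or.inr ⟨heq, h⟩)
      · exact Or.inr (Or.inr ⟨heq.symm, h⟩)
    · by_contra hcon
      push Not at hcon
      refine i.2 (Finset.mem_union_left _ (Finset.mem_union_left _ ?_))
      exact Finset.mem_filter.2 ⟨Finset.mem_univ _, j,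
        Finset.mem_filter.2 ⟨Finset.mem_univ _, heq, fun h => hcon.1 (Or.inl h),
          fun h => hcon.2 (Or.inl h)⟩⟩
  obtain ⟨⟨i, hi⟩, hfisher⟩ := tournament_second_neighbour r' hasym' htot'
  refine ⟨x i, ?_⟩
  have hlow : ((univ.filter fun j => x j ∈ A (x i)).card : ℝ) ≤
      (out1 r' ⟨i, hi⟩).card + X.card := by
    have hsub : (univ.filter fun j => x j ∈ A (x i)) ⊆
        (out1 r' ⟨i, hi⟩).image Subtype.val ∪ X := by
      intro j hj
      by_cases hjX : j ∈ X
      · exact Finset.mem_union_right _ hjX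
      refine Finset.mem_union_left _ (Finset.mem_image.2 ⟨⟨j, hjX⟩, ?_, rfl⟩)
      have := (Finset.mem_filter.1 hj).2
      simp only [A, out1, Finset.mem_filter, Finset.mem_univ, true_and] at this ⊢
      exact Or.inl this
    have h := (Finset.card_le_card hsub).trans
      ((Finset.card_union_le _ _).trans (Nat.add_le_add_right Finset.card_image_le _))
    exact_mod_cast h
  have hup : ((out2 r' ⟨i, hi⟩).card : ℝ) ≤
      (univ.filter fun j => x j ∈ B (x i)).card := by
    refine Nat.cast_le.2 (Finset.card_le_card_of_injOn Subtype.val ?_ Subtype.val_injective.injOn)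
    rintro ⟨j, hj⟩ hmem
    simp only [out2, Finset.coe_filter, Finset.mem_univ, true_and, Set.mem_ofPred_eq] at hmem
    simp only [B, out2, Finset.coe_filter, Finset.mem_univ, true_and, Set.mem_ofPred_eq,
      Finset.mem_insert, Finset.mem_filter]
    obtain ⟨-, hn1, ⟨l, hl⟩, h1, h2⟩ := hmem
    by_cases heq : x j = x i
    · exact Or.inl heq
    refine Or.inr ⟨heq, fun h => hn1 (Or.inl h), x l, ?_⟩
    rcases h1 with h1 | ⟨h1, -⟩ <;> rcases h2 with h2 | ⟨h2, -⟩
    · exact ⟨h1, h2⟩
    · exact absurd (h2 ▸ h1) fun h => hn1 (Or.inl h)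
    · exact absurd (h1.symm ▸ h2) fun h => hn1 (Or.inl h)
    · exact absurd (h1.trans h2).symm heq
  have hdA : |dev A x i| ≤ t := by
    by_contra h
    exact hi (Finset.mem_union_left _ (Finset.mem_union_right _
      (Finset.mem_filter.2 ⟨Finset.mem_univ _, not_le.1 h⟩)))
  have hdB : |dev B x i| ≤ t := by
    by_contra h
    exact hi (Finset.mem_union_right _
      (Finset.mem_filter.2 ⟨Finset.mem_univ _, not_le.1 h⟩))
  have hf : ((out1 r' ⟨i, hi⟩).card : ℝ) ≤ (out2 r' ⟨i, hi⟩).card := by exact_mod_cast hfisher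
  have eA := cast_card_filter_eq A x i
  have eB := cast_card_filter_eq B x i
  have hAi : x i ∉ A (x i) := by simp [A, out1, hirr]
  have hBi : x i ∈ B (x i) := by simp [B]
  have hBc : ((B (x i)).card : ℝ) ≤ (out2 r (x i)).card + 1 := by
    exact_mod_cast Finset.card_insert_le _ _
  rw [if_neg hAi] at eA
  rw [if_pos hBi] at eB
  have hA1 := (abs_le.1 hdA).1
  have hB1 := (abs_le.1 hdB).2
  have hmain : n * ((univ.filter fun j => x j ∈ A (x i)).card : ℝ) ≤
      n * ((univ.filter fun j => x j ∈ B (x i)).card : ℝ) + n * (e * K) := by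
    rw [← mul_add]; exact mul_le_mul_of_nonneg_left (by linarith) hn.le
  have han : ((A (x i)).card : ℝ) ≤ n := by
    exact Nat.cast_le.2 (Finset.card_le_univ (A (x i)))
  have hb0 : (0 : ℝ) ≤ (B (x i)).card := Nat.cast_nonneg _
  refine le_of_mul_le_mul_left ?_ hKpos
  have hbK : (K : ℝ) * (B (x i)).card ≤ K * ((out2 r (x i)).card + 1) :=
    mul_le_mul_of_nonneg_left hBc hKpos.le
  have hne : n ≤ n * ((K : ℝ) * e) := le_mul_of_one_le_right hn.le hKe
  simp only [t] at hA1 hB1
  show (K : ℝ) * (A (x i)).card ≤ _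
  nlinarith

/-- Approximate second neighbourhood theorem for almost-tournaments. -/
theorem almost_tournament {ε : ℝ} (hε : 0 < ε) :
    ∃ δ : ℝ, 0 < δ ∧ ∀ (W : Type) [Fintype W] [Nonempty W] (r : W → W → Prop),
      (∀ u v, r u v → ¬ r v u) →
      ((missingPairs r).card : ℝ) ≤ δ * (Fintype.card W : ℝ) ^ 2 →
      ∃ v, ((out1 r v).card : ℝ) ≤ (out2 r v).card + ε * (Fintype.card W : ℝ) := by
  let e : ℝ := min (ε / 6) (1 / 2)
  have he : 0 < e := lt_min (by linarith) (by norm_num)
  have he1 : e < 1 := lt_of_le_of_lt (min_le_right _ _) (by norm_num)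
  have he6 : 6 * e ≤ ε := by linarith [min_le_left (ε / 6) (1 / 2 : ℝ)]
  let K : ℕ := Nat.ceil (4 / e ^ 3)
  have hK : 4 / e ^ 3 ≤ K := Nat.le_ceil _
  have hKpos : (0 : ℝ) < K := lt_of_lt_of_le (by positivity) hK
  refine ⟨min (e ^ 2) (e / (2 * K)), lt_min (by positivity) (by positivity), ?_⟩
  intro W _ _ r hasym hM
  set n : ℝ := (Fintype.card W : ℝ)
  by_cases h0 : (missingPairs r).card = 0
  · have htot : ∀ u v, u ≠ v → r u v ∨ r v u := by
      intro u v huv
      by_contra h
      push Not at h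
      rw [Finset.card_eq_zero] at h0
      have hmem : (u, v) ∈ missingPairs r := by simp [missingPairs, huv, h.1, h.2]
      simp [h0] at hmem
    obtain ⟨v, hv⟩ := tournament_second_neighbour r hasym htot
    refine ⟨v, ?_⟩
    have h1 : ((out1 r v).card : ℝ) ≤ (out2 r v).card := by exact_mod_cast hv
    have h2 : 0 ≤ ε * n := by positivity
    linarith
  have h1 : (1 : ℝ) ≤ (missingPairs r).card := by exact_mod_cast Nat.one_le_iff_ne_zero.2 h0
  have hn0 : 0 ≤ n := Nat.cast_nonneg _
  have hen : 1 ≤ e * n := by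
    have h2 : 1 ≤ (e * n) ^ 2 := by
      rw [mul_pow]
      exact h1.trans (hM.trans (mul_le_mul_of_nonneg_right (min_le_left _ _) (sq_nonneg n)))
    nlinarith [mul_nonneg he.le hn0]
  have hM' : (K : ℝ) * ((missingPairs r).card : ℝ) ≤ e / 2 * n ^ 2 := by
    have h2 : ((missingPairs r).card : ℝ) ≤ e / (2 * K) * n ^ 2 :=
      hM.trans (mul_le_mul_of_nonneg_right (min_le_right _ _) (sq_nonneg n))
    refine (mul_le_mul_of_nonneg_left h2 hKpos.le).trans (le_of_eq ?_)
    field_simp
  obtain ⟨v, hv⟩ := exists_approx r hasym K e he he1 hK hM'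
  refine ⟨v, hv.trans ?_⟩
  nlinarith

end Vale.Agent.P038
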